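import Vale.Agent.N095.Nuc
import Vale.Agent.N095.Gap
import Vale.Agent.N095.Defs

/-! # N095: actions which are not equivariantly `𝒵`-stable -/

open Filter Topology
open scoped MultiplierAlgebra ComplexOrder

namespace Vale.Agent.N095

open Vale.Agent.P095S

variable {A Z B G : Type} [CStarAlgebra A] [CStarAlgebra Z] [NonUnitalCStarAlgebra B] [Group G]

theorem exists_act (D : PD A) (I : Impl G) :
    ∃ α : Act A G, (∀ g a, D.ev (α g a) = I.U g (D.ev a)) ∧
      ∀ g a, D.val (α g a) = I.U g * D.val a * I.U g⁻¹ := by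
  have h1 : ∀ g a, ∃ b, D.val b = I.U g * D.val a * I.U g⁻¹ := by
    intro g a
    let L : A →L[ℂ] (H →L[ℂ] H) := (ContinuousLinearMap.mulLeftRight ℂ _ (I.U g) (I.U g⁻¹)).comp
      (P095L.hc D.val.toNonUnitalStarAlgHom)
    let M : Submodule ℂ (H →L[ℂ] H) := LinearMap.range (D.val : A →ₐ[ℂ] (H →L[ℂ] H)).toLinearMap
    have h2 : IsClosed (M : Set (H →L[ℂ] H)) :=
      (NonUnitalStarAlgHom.isometry D.val D.inj).isClosedEmbedding.isClosed_range
    have h3 : Submodule.span ℂ (Set.range D.w) ≤ M.comap L.toLinearMap := by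
      rw [Submodule.span_le]
      rintro _ ⟨s, rfl⟩
      obtain ⟨c, t, h⟩ := I.conj g s
      refine ⟨c • D.w t, ?_⟩
      change D.val (c • D.w t) = I.U g * D.val (D.w s) * I.U g⁻¹
      rw [map_smul, D.val_w, D.val_w, h]
    exact closure_minimal h3 (h2.preimage L.continuous) (D.dense a)
  choose b hb using h1
  have h4 : ∀ g, I.U g⁻¹ * I.U g = 1 := fun g => by rw [← map_mul, inv_mul_cancel, map_one]
  have h5 : ∀ g h a, b (g * h) a = b g (b h a) := fun g h a => D.inj (by
    simp only [hb, mul_inv_rev, map_mul, mul_assoc])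
  have h6 : ∀ a, b 1 a = a := fun a => D.inj (by rw [hb, inv_one, map_one, one_mul, mul_one])
  let f : G → A ≃⋆ₐ[ℂ] A := fun g =>
    { toFun := b g
      invFun := b g⁻¹
      left_inv := fun a => by rw [← h5, inv_mul_cancel, h6]
      right_inv := fun a => by rw [← h5, mul_inv_cancel, h6]
      map_mul' := fun x y => D.inj (by
        simp only [hb, map_mul, mul_assoc]
        rw [← mul_assoc (I.U g⁻¹), h4, one_mul])
      map_add' := fun x y => D.inj (by simp only [hb, map_add, mul_add, add_mul])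
      map_star' := fun x => D.inj (by
        simp only [hb, map_star, star_mul, I.star_U, inv_inv, mul_assoc])
      map_smul' := fun c x => D.inj (by simp only [hb, map_smul, mul_smul_comm, smul_mul_assoc]) }
  refine ⟨{ toFun := f
            map_one' := StarAlgEquiv.ext h6
            map_mul' := fun g h => StarAlgEquiv.ext (h5 g h) }, fun g a => ?_, hb⟩
  change D.val (b g a) d0 = I.U g (D.val a d0)
  rw [hb, mul_apply_eq_comp, mul_apply_eq_comp, I.fix]

theorem exists_central (hZ : IsJS Z) : ∃ ρ : ℕ → (Z →⋆ₐ[ℂ] Z),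
    ∀ y x, Tendsto (fun n => ρ n y * x - x * ρ n y) atTop (𝓝 0) := by
  obtain ⟨E, _, T, φ, v, hT, hv⟩ := hZ.listed.2.2.2
  have hT' : P095L.IsSpatial T := hT
  refine ⟨fun n => (φ.symm : E →⋆ₐ[ℂ] Z).comp
    ((Unitary.conjStarAlgAut ℂ E (star (v n)) : E →⋆ₐ[ℂ] E).comp hT'.iR), fun y x => ?_⟩
  have h1 := ((hv x).const_mul (T 1 y)).sub ((hv x).mul_const (T 1 y))
  rw [← hT'.ms.mul, ← hT'.ms.mul, one_mul, mul_one, one_mul, mul_one, sub_self] at h1
  rw [tendsto_zero_iff_norm_tendsto_zero] at h1 ⊢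
  refine h1.congr fun n => ?_
  have h2 : (v n : E) * star (v n : E) = 1 := (v n).2.2
  change _ = ‖φ.symm (star (v n : E) * T 1 y * star (star (v n : E))) * x -
    x * φ.symm (star (v n : E) * T 1 y * star (star (v n : E)))‖
  rw [← StarAlgEquiv.norm_map φ, map_sub, map_mul φ, map_mul φ, φ.apply_symm_apply, star_star,
    ← P095L.norm_conj (v n).2 (_ * φ x - _), mul_sub, sub_mul]
  simp only [← mul_assoc, h2, one_mul]
  rw [mul_assoc (_ * T 1 y) (v n : E), h2, mul_one]

theorem not_conj (D : PD A) (I : Impl G) (hZ : IsJS Z) {T : Bil A Z B} (hT : IsSpatial T)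
    {α : Act A G} (hα : ∀ g a, D.ev (α g a) = I.U g (D.ev a)) {β : Act B G}
    (hβ : IsTensorId T α β) : ¬ CocycleConj α β := by
  rintro ⟨Φ, u, -, hu⟩
  have hT' : P095L.IsSpatial T := hT
  obtain ⟨ρ, hρ⟩ := exists_central hZ
  have hd : Dense (Submodule.span ℂ (Set.range fun p : A × Z => T p.1 p.2) : Set B) := by
    refine hT.1.mono ?_
    rintro _ ⟨x, rfl⟩
    induction x with
    | zero => rw [map_zero]; exact Submodule.zero_mem _
    | add x y hx hy => rw [map_add]; exact Submodule.add_mem _ hx hy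
    | tmul a z => exact Submodule.subset_span ⟨(a, z), rfl⟩
  have he : ∀ b, T 1 1 * b = b := by
    have h : ContinuousLinearMap.mul ℂ B (T 1 1) = ContinuousLinearMap.id ℂ B := by
      refine ContinuousLinearMap.ext_on hd ?_
      rintro _ ⟨p, rfl⟩
      change T 1 1 * T p.1 p.2 = T p.1 p.2
      rw [← hT'.ms.mul, one_mul, one_mul]
    exact DFunLike.congr_fun h
  have he' : ∀ b, b * T 1 1 = b := fun b => by
    rw [← star_inj, star_mul, ← hT'.ms.star, star_one, star_one, he]
  let j : Z →⋆ₙₐ[ℂ] B :=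
    { toFun := T 1
      map_smul' := map_smul _
      map_zero' := map_zero _
      map_add' := map_add _
      map_mul' := fun x y => by rw [← hT'.ms.mul, one_mul]
      map_star' := fun x => by rw [← hT'.ms.star, star_one] }
  have hj : ∀ z, ‖T 1 z‖ ≤ ‖z‖ := NonUnitalStarAlgHom.norm_apply_le j
  have hc : ∀ y b, Tendsto (fun n => T 1 (ρ n y) * b - b * T 1 (ρ n y)) atTop (𝓝 0) := by
    intro y b
    have h0 : ∀ n, ‖T 1 (ρ n y)‖ ≤ ‖y‖ := fun n =>
      (hj _).trans (NonUnitalStarAlgHom.norm_apply_le (ρ n) y)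
    refine tendsto_dense hd (fun n => ContinuousLinearMap.mul ℂ B (T 1 (ρ n y)) -
      (ContinuousLinearMap.mul ℂ B).flip (T 1 (ρ n y))) 0 (2 * ‖y‖) (fun n b => ?_) ?_ b
    · refine (norm_sub_le _ _).trans ?_
      rw [two_mul, add_mul]
      exact add_le_add ((norm_mul_le _ _).trans (mul_le_mul_of_nonneg_right (h0 n) (norm_nonneg _)))
        ((norm_mul_le _ _).trans ((mul_le_mul_of_nonneg_left (h0 n) (norm_nonneg _)).trans
          (mul_comm _ _).le))
    · rintro _ ⟨p, rfl⟩
      have h1 := (((P095L.hc j).continuous.tendsto 0).comp (hρ y p.2)).const_mul (T p.1 1)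
      rw [map_zero, mul_zero] at h1
      refine h1.congr fun n => ?_
      change T p.1 1 * T 1 _ = T 1 _ * T p.1 p.2 - T p.1 p.2 * T 1 _
      simp only [← hT'.ms.mul, one_mul, mul_one, map_sub, mul_sub]
  let ψ : ℕ → (Z →⋆ₙₐ[ℂ] A) := fun n =>
    (Φ.symm : B →⋆ₙₐ[ℂ] A).comp (j.comp (ρ n).toNonUnitalStarAlgHom)
  have hψ : ∀ n y, Φ (ψ n y) = T 1 (ρ n y) := fun n y => Φ.apply_symm_apply _
  have hψ1 : ∀ n, ψ n 1 = 1 := fun n => EquivLike.injective Φ (by
    rw [hψ, map_one (ρ n), ← he' (Φ 1), ← Φ.apply_symm_apply (T 1 1), ← map_mul, one_mul])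
  have hi : ∀ y g, Tendsto (fun n => α g (ψ n y) - ψ n y) atTop (𝓝 0) := by
    intro y g
    have hm : ∀ (x : 𝓜(ℂ, B)) (b c : B), x.fst (b * c) = x.fst b * c := fun x b c => by
      rw [← he (x.fst (b * c)), ← x.central, ← mul_assoc, x.central, he]
    have h1 := (((u g : 𝓜(ℂ, B)).fst.continuous.tendsto 0).comp
      (hc y ((star (u g : 𝓜(ℂ, B))).fst (T 1 1))))
    rw [map_zero, tendsto_zero_iff_norm_tendsto_zero] at h1
    rw [tendsto_zero_iff_norm_tendsto_zero]
    refine h1.congr fun n => ?_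
    have h2 := congrArg (fun x : 𝓜(ℂ, B) => x.fst (T 1 1)) (hu g (ψ n y))
    have h3 := congrArg (fun x : 𝓜(ℂ, B) => x.fst (T 1 (ρ n y))) (u g).2.2
    rw [hψ, hβ, map_one (α g)] at h2
    change Φ (α g (ψ n y)) * T 1 1 =
      (u g : 𝓜(ℂ, B)).fst (T 1 (ρ n y) * (star (u g : 𝓜(ℂ, B))).fst (T 1 1)) at h2
    change (u g : 𝓜(ℂ, B)).fst ((star (u g : 𝓜(ℂ, B))).fst (T 1 (ρ n y))) = T 1 (ρ n y) at h3
    rw [Function.comp_apply, map_sub, ← h2, he', ← hm, he, h3, ← hψ, ← map_sub,
      StarAlgEquiv.norm_map]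
  let σ : ℕ → (Z →ₗ[ℂ] ℂ) := fun n =>
    { toFun := fun y => D.tau (ψ n y)
      map_add' := fun x y => by rw [map_add, map_add]
      map_smul' := fun c x => by rw [map_smul, map_smul]; rfl }
  have hσ : ∀ n y, D.tau (ψ n y) = D.tau (ψ 0 y) := by
    have h1 : ∀ n, JS.IsTracialState (σ n) := fun n =>
      ⟨fun x => by
        change _ ≤ D.tau (ψ n _)
        rw [map_mul (ψ n), map_star (ψ n)]; exact D.tau_nonneg _,
      by change D.tau (ψ n 1) = 1; rw [hψ1, D.tau_one],
      fun x y => by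
        change D.tau (ψ n _) = D.tau (ψ n _)
        rw [map_mul (ψ n), map_mul (ψ n), D.tau_comm]⟩
    exact fun n y => DFunLike.congr_fun (hZ.2.2.unique (h1 n) (h1 0)) y
  have key : ∀ y, D.tau (ψ 0 y) = 0 → ψ 0 y = 0 := by
    intro y hy
    by_contra h0
    have h1 : ‖D.ev (ψ 0 y)‖ ≠ 0 := norm_ne_zero_iff.2 (mt D.ev_eq_zero h0)
    have h2 : ∀ n, ‖D.ev (ψ n y)‖ = ‖D.ev (ψ 0 y)‖ := fun n => by
      have h3 := hσ n (star y * y)
      rw [map_mul (ψ n), map_mul (ψ 0), map_star (ψ n), map_star (ψ 0), D.tau_star_mul,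
        D.tau_star_mul] at h3
      rw [norm_eq_sqrt_re_inner (𝕜 := ℂ), h3, ← norm_eq_sqrt_re_inner]
    refine I.gap (fun n => ((‖D.ev (ψ 0 y)‖ : ℂ))⁻¹ • D.ev (ψ n y)) (fun n => ?_) (fun n => ?_)
      fun g => ?_
    · rw [norm_smul, h2 n, norm_inv, Complex.norm_real, norm_norm, inv_mul_cancel₀ h1]
    · change _ * D.ev (ψ n y) 0 = 0
      rw [← D.tau_apply, hσ, hy, mul_zero]
    · have h4 := ((D.ev.continuous.tendsto 0).comp (hi y g)).const_smul ((‖D.ev (ψ 0 y)‖ : ℂ))⁻¹
      rw [map_zero, smul_zero] at h4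
      refine h4.congr fun n => ?_
      rw [Function.comp_apply, map_sub, hα, map_smul, smul_sub]
  have h7 : ∀ y, ψ 0 y = D.tau (ψ 0 y) • 1 := fun y => by
    have h8 := key (y - D.tau (ψ 0 y) • 1) (by
      rw [map_sub, map_sub, map_smul, map_smul, hψ1, D.tau_one, smul_eq_mul, mul_one, sub_self])
    rwa [map_sub, map_smul, hψ1, sub_eq_zero] at h8
  refine (JS.PartV.isEmpty_hom hZ.old.limit).false
    { toFun := fun y => D.tau (ψ 0 y)
      map_one' := by rw [hψ1, D.tau_one]
      map_mul' := fun x y => by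
        rw [map_mul, h7 y, mul_smul_comm, mul_one, map_smul, map_smul, D.tau_one, smul_eq_mul,
          smul_eq_mul, mul_one, mul_comm]
      map_zero' := by rw [map_zero, map_zero]
      map_add' := fun x y => by rw [map_add, map_add]
      commutes' := fun c => by
        rw [Algebra.algebraMap_eq_smul_one, map_smul, map_smul, hψ1, D.tau_one, smul_eq_mul, mul_one]
        rfl
      map_star' := fun x => by rw [map_star, D.tau_star] }

theorem stable {A : Type} [NonUnitalCStarAlgebra A] (hZ : IsJS Z) {T : Bil A Z B}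
    (hT : IsSpatial T) (hA : SepSimpleNuc A) (hAB : Iso A B) (hc : Countable G) (hG : Amenable G)
    (α : Act A G) : Stable T α := by
  obtain ⟨β, hβ, -⟩ := P095L.IsSpatial.act hT α
  exact ⟨β, hβ, conj hZ hT hβ hA hAB hc hG⟩

theorem PD.ssn (D : PD A) : SepSimpleNuc A := ⟨D.separable, D.simple, Or.inl D.nuclear⟩

theorem PD.iso (D : PD A) (hZ : IsJS Z) {T : Bil A Z B} (hT : IsSpatial T) : Iso A B :=
  have := D.separable
  (P095.H628.zstable_iff D.simple D.nuclear hZ.old.limit hZ.old.absorbing T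
    (P095L.IsSpatial.old hT)).2 D.noChar

theorem PD.detects (D : PD A) (hZ : IsJS Z) {T : Bil A Z B} (hT : IsSpatial T) : Detects T := by
  intro G _ hc
  refine ⟨stable hZ hT D.ssn (D.iso hZ hT) hc, fun h => by_contra fun hG => ?_⟩
  have : Infinite G := by
    by_contra hf
    have : Finite G := not_infinite_iff_finite.1 hf
    have := Fintype.ofFinite G
    refine hG (amenable_of (atTop : Filter ℕ) (fun _ f => (∑ k, f k) / Fintype.card G)
      (fun _ => ?_) (fun _ f f' _ _ => ?_) (fun _ c f => ?_) (fun _ f hf => ?_) fun f k _ => ?_)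
    · simp
    · simp only [Pi.add_apply, Finset.sum_add_distrib, add_div]
    · simp only [Pi.smul_apply, smul_eq_mul, ← Finset.mul_sum, mul_div_assoc]
    · exact div_nonneg (Finset.sum_nonneg fun i _ => hf _) (by positivity)
    · rw [← Equiv.sum_comp (Equiv.mulLeft k) f]
      exact tendsto_const_nhds.congr fun _ => (sub_self _).symm
  obtain ⟨κ⟩ : Nonempty (G ≃ ℕ) := nonempty_equiv_of_countable
  obtain ⟨α, hα, -⟩ := exists_act D (shiftImpl κ hG)
  obtain ⟨β, h1, h2⟩ := h α
  exact not_conj D _ hZ hT hα h1 h2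

theorem PD.compactFails (D : PD A) (hZ : IsJS Z) {T : Bil A Z B} (hT : IsSpatial T) :
    CompactFails T := by
  obtain ⟨α, hα, hα'⟩ := exists_act D gaugeImpl
  refine ⟨Multiplicative (ℕ → P), inferInstance, inferInstance, inferInstance,
    inferInstanceAs (CompactSpace (ℕ → P)),
    inferInstanceAs (TopologicalSpace.MetrizableSpace (ℕ → P)), gauge_amenable, α, fun a => ?_,
    fun ⟨β, h1, h2⟩ => not_conj D _ hZ hT hα h1 h2⟩
  have h1 : ∀ b ∈ Submodule.span ℂ (Set.range D.w), Continuous fun g => α g b := by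
    intro b hb
    induction hb using Submodule.span_induction with
    | mem y hy =>
      obtain ⟨s, rfl⟩ := hy
      have h2 : ∀ g, α g (D.w s) = sg (pr g.toAdd s) • D.w s := fun g => D.inj (by
        rw [hα', map_smul, D.val_w]
        exact V0_conj g s)
      simp only [h2]
      exact (continuous_sg s).smul continuous_const
    | zero => simp only [map_zero]; exact continuous_const
    | add y z _ _ hy hz => simp only [map_add]; exact hy.add hz
    | smul c y _ hy => simp only [map_smul]; exact hy.const_smul c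
  refine continuous_of_uniform_approx_of_continuous fun u hu => ?_
  obtain ⟨ε, hε, h⟩ := Metric.mem_uniformity_dist.1 hu
  obtain ⟨b, hb, hab⟩ := Metric.mem_closure_iff.1 (D.dense a) ε hε
  refine ⟨_, h1 b hb, fun g => h ?_⟩
  rwa [dist_eq_norm, ← map_sub, StarAlgEquiv.norm_map, ← dist_eq_norm]

theorem tensorOK (A Z : Type) [NonUnitalCStarAlgebra A] [NonUnitalCStarAlgebra Z] : TensorOK A Z :=
  ⟨P095L.exists_spatial A Z, fun _ _ _ hT => ⟨fun _ _ _ hT' => P095L.IsSpatial.unique hT hT',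
    fun _ _ α => P095L.IsSpatial.act hT α⟩⟩

end Vale.Agent.N095
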