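import Vale.Agent.N095.Alg

/-! # N095: the algebra of the Pauli operators is nuclear, `𝒵`-stable and has one trace -/

open Filter Topology
open scoped ComplexOrder

namespace Vale.Agent.N095

open Vale.Agent.P095R Vale.Agent.JS.PartT5 Vale.Agent.P095.H628

/-- the labels supported on the first `N` sites -/
def K (N : ℕ) : AddSubgroup Γ where
  carrier := {s | ∀ j, s (N + j) = 0}
  add_mem' h1 h2 j := by rw [Finsupp.add_apply, h1 j, h2 j, add_zero]
  zero_mem' _ := rfl
  neg_mem' h j := by rw [Finsupp.neg_apply, h j, neg_zero]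

theorem K_finite (N : ℕ) : Finite (K N) := by
  refine Finite.of_injective (fun s (j : Fin N) => s.1 j) fun s t h => Subtype.ext ?_
  ext1 j
  rcases lt_or_ge j N with hj | hj
  · exact congrFun h ⟨j, hj⟩
  · obtain ⟨k, rfl⟩ := Nat.exists_eq_add_of_le hj
    rw [s.2 k, t.2 k]

theorem eventually_K (s : Γ) : ∀ᶠ N in atTop, s ∈ K N := by
  filter_upwards [eventually_gt_atTop (s.support.sup id)] with N hN j
  by_contra h
  have := Finset.le_sup (f := id) (Finsupp.mem_support_iff.2 h)
  simp only [id] at this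
  omega

namespace PD

variable {A : Type} [CStarAlgebra A] (D : PD A)

open Classical in
theorem exists_fac (N : ℕ) : ∃ (m : ℕ) (φ : A →ₗ[ℂ] Matrix (Fin m) (Fin m) ℂ)
    (ψ : Matrix (Fin m) (Fin m) ℂ →ₗ[ℂ] A) (Q : A →L[ℂ] A), IsCPMap φ ∧ IsCPMap ψ ∧
      (∀ a, ψ (φ a) = Q a) ∧ ∀ s, Q (D.w s) = if ∀ j, s (N + j) = 0 then D.w s else 0 := by
  have := K_finite N
  have := Fintype.ofFinite (K N)
  let m := Fintype.card (K N)
  have hm : (m : ℂ) ≠ 0 := Nat.cast_ne_zero.2 Fintype.card_ne_zero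
  let κ : Fin m ≃ K N := (Fintype.equivFin (K N)).symm
  let g : A →ₗ[ℂ] ℂ := (m : ℂ)⁻¹ • D.tau.toLinearMap
  have hg : ∀ a, g a = (m : ℂ)⁻¹ * D.tau a := fun _ => rfl
  let φ := Phi g fun k => star (D.w (κ k))
  let ψ := Psi fun k => D.w (κ k)
  have h1 : ∀ a, ψ (φ a) = ∑ k : K N, ∑ l : K N,
      ((m : ℂ)⁻¹ * D.tau (star (D.w k) * a * D.w l)) • (D.w k * star (D.w l)) := by
    intro a
    rw [← κ.sum_comp]
    change ∑ k, ∑ l, g (star (D.w (κ k)) * a * star (star (D.w (κ l)))) •
      (D.w (κ k) * star (D.w (κ l))) = _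
    refine Finset.sum_congr rfl fun k _ => ?_
    rw [← κ.sum_comp]
    refine Finset.sum_congr rfl fun l _ => ?_
    rw [star_star, hg]
  have h2 : Continuous (ψ ∘ₗ φ) := by
    refine Continuous.congr ?_ fun a => (h1 a).symm
    fun_prop
  refine ⟨m, φ, ψ, ⟨ψ ∘ₗ φ, h2⟩, isCPMap_Phi g (fun a => ?_) _, isCPMap_Psi _, fun _ => rfl,
    fun s => (h1 _).trans ?_⟩
  · rw [hg]
    refine mul_nonneg ?_ (D.tau_nonneg a)
    rw [← Complex.ofReal_natCast, ← Complex.ofReal_inv]
    exact Complex.zero_le_real.2 (by positivity)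
  have h3 : ∀ k l : Γ, D.tau (star (D.w k) * D.w s * D.w l) • (D.w k * star (D.w l)) =
      if k = s + l then D.w s else 0 := by
    intro k l
    rw [mul_assoc, D.w_mul s l, mul_smul_comm, map_smul]
    split_ifs with h
    · rw [← h, D.star_mul_w, D.tau_one, smul_eq_mul, mul_one, ← smul_mul_assoc, h, ← D.w_mul,
        mul_assoc, D.w_mul_star, mul_one]
    · rw [D.star_w, smul_mul_assoc, D.w_mul, map_smul, map_smul, D.tau_w,
        if_neg fun h' => h (add_eq_zero'.1 h').symm]
      simp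
  simp only [mul_smul, h3, ← Finset.smul_sum]
  split_ifs with h
  · rw [Finset.sum_comm]
    have h4 : ∀ l : K N, ∑ k : K N, (if (k : Γ) = s + l then D.w s else 0) = D.w s := by
      intro l
      rw [Finset.sum_eq_single ⟨s + l, (K N).add_mem h l.2⟩, if_pos rfl]
      · exact fun k _ hk => if_neg fun h' => hk (Subtype.ext h')
      · exact fun h' => absurd (Finset.mem_univ _) h'
    simp only [h4]
    rw [Finset.sum_const, Finset.card_univ, ← Nat.cast_smul_eq_nsmul ℂ, smul_smul,
      inv_mul_cancel₀ hm, one_smul]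
  · rw [Finset.sum_eq_zero, smul_zero]
    refine fun k _ => Finset.sum_eq_zero fun l _ => if_neg fun h' => h ?_
    have h5 := (K N).add_mem k.2 l.2
    rwa [h', add_assoc, add_self, add_zero] at h5

include D in
theorem nuclear : IsNuclearAlg A := by
  choose m φ ψ Q h1 h2 h3 h4 using D.exists_fac
  have h5 : ∀ N a, ‖Q N a‖ ≤ 1 * ‖a‖ := fun N a =>
    le_of_tendsto' (D.R_tendsto N (Q N) (h4 N) a).norm fun k => D.norm_R N k a
  have h6 : ∀ a, Tendsto (fun N => Q N a) atTop (𝓝 a) := by
    refine tendsto_dense D.dense Q (ContinuousLinearMap.id ℂ A) 1 h5 ?_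
    rintro _ ⟨s, rfl⟩
    refine tendsto_const_nhds.congr' ?_
    filter_upwards [eventually_K s] with N hN
    rw [h4, if_pos (show ∀ j, s (N + j) = 0 from hN)]; rfl
  intro F ε hε
  obtain ⟨N, hN⟩ := ((F.eventually_all).2 fun a _ => Metric.tendsto_nhds.1 (h6 a) ε hε).exists
  exact ⟨m N, φ N, ψ N, h1 N, h2 N, fun a ha => by rw [h3, ← dist_eq_norm]; exact hN a ha⟩

theorem central (x : P) : IsCentralSeq fun n => D.w (Finsupp.single n x) := by
  refine ⟨⟨1, fun n => D.norm_w _⟩, fun a => ?_⟩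
  rw [← tendsto_zero_iff_norm_tendsto_zero]
  refine tendsto_dense D.dense (fun n => ContinuousLinearMap.mul ℂ A (D.w (Finsupp.single n x)) -
    (ContinuousLinearMap.mul ℂ A).flip (D.w (Finsupp.single n x))) 0 2 (fun n a => ?_) ?_ a
  · refine (norm_sub_le _ _).trans ?_
    rw [two_mul]
    exact add_le_add ((norm_mul_le _ _).trans (mul_le_of_le_one_left (norm_nonneg _) (D.norm_w _)))
      ((norm_mul_le _ _).trans (mul_le_of_le_one_right (norm_nonneg _) (D.norm_w _)))
  · rintro _ ⟨s, rfl⟩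
    refine tendsto_const_nhds.congr' ?_
    filter_upwards [eventually_K s] with n hn
    have h : s n = 0 := hn 0
    change 0 = D.w _ * D.w s - D.w s * D.w _
    rw [D.w_mul, D.w_mul, single_co, co_single, h, add_comm]
    simp

include D in
theorem noChar : NoCentralCharacters A := by
  intro χ hχ
  have hx := D.central (1, 0)
  have hz := D.central (0, 1)
  have h1 : IsCentralSeq fun _ : ℕ => (1 : A) := ⟨⟨_, fun _ => le_rfl⟩, fun a => by simp⟩
  have h2 := hχ.mul _ _ hx hx
  have h3 := hχ.mul _ _ hz hz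
  have h4 := hχ.mul _ _ hx hz
  have h5 := hχ.mul _ _ hz hx
  have h6 := hχ.smul (-1) _ (hx.mul hz)
  have e1 : ∀ n, D.w (Finsupp.single n (1, 0)) * D.w (Finsupp.single n (1, 0)) = 1 := fun n => by
    rw [D.w_mul, add_self, D.w_zero, single_co]; simp
  have e2 : ∀ n, D.w (Finsupp.single n (0, 1)) * D.w (Finsupp.single n (0, 1)) = 1 := fun n => by
    rw [D.w_mul, add_self, D.w_zero, single_co]; simp
  have e3 : ∀ n, D.w (Finsupp.single n (0, 1)) * D.w (Finsupp.single n (1, 0)) =
      (-1 : ℂ) • (D.w (Finsupp.single n (1, 0)) * D.w (Finsupp.single n (0, 1))) := fun n => by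
    rw [D.w_mul, D.w_mul, single_co, single_co, add_comm]; simp [sg_one]
  simp only [e1] at h2
  simp only [e2] at h3
  simp only [e3] at h5
  have h7 : χ (fun n => D.w (Finsupp.single n (0, 1))) * χ (fun n => D.w (Finsupp.single n (1, 0))) =
      -1 * (χ (fun n => D.w (Finsupp.single n (1, 0))) *
        χ (fun n => D.w (Finsupp.single n (0, 1)))) := by
    rw [← h5, ← h4]; exact h6
  have h8 : χ (fun _ => 1) * χ (fun _ => 1) = 0 := by
    nth_rewrite 1 [h2]
    rw [h3]
    linear_combination (1 / 2 : ℂ) * (χ (fun n => D.w (Finsupp.single n (1, 0))) *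
      χ (fun n => D.w (Finsupp.single n (0, 1)))) * h7
  obtain ⟨y, hy, hy0⟩ := hχ.ne
  have h9 := hχ.mul _ _ hy h1
  simp only [mul_one, mul_self_eq_zero.1 h8, mul_zero] at h9
  exact hy0 h9

theorem tracial : JS.IsTracialState D.tau.toLinearMap := ⟨D.tau_nonneg, D.tau_one, D.tau_comm⟩

include D in
theorem oneTrace : P095S.OneTrace A := by
  refine ⟨_, D.tracial, fun σ hσ => LinearMap.ext fun a => ?_⟩
  have h0 : P095.IsTracialState σ := ⟨hσ.one, fun a => (Complex.nonneg_iff.1 (hσ.nonneg a)).2.symm,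
    fun a => (Complex.nonneg_iff.1 (hσ.nonneg a)).1, hσ.tracial⟩
  have h1 : Continuous σ :=
    (σ.mkContinuous 1 fun x => (h0.norm_le x).trans (one_mul _).ge).continuous
  have h2 : ∀ m, σ (D.R 0 m a) = σ a := by
    intro m
    induction m with
    | zero => rfl
    | succ m ih =>
      have h3 : ∀ t b, σ (D.w t * b * star (D.w t)) = σ b := fun t b => by
        rw [hσ.tracial, ← mul_assoc, D.star_mul_w, one_mul]
      have h4 : Fintype.card P = 4 := by decide
      rw [D.R_succ, D.E_apply, map_smul, map_sum]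
      simp only [h3, ih, Finset.sum_const, Finset.card_univ, h4, nsmul_eq_mul, smul_eq_mul]
      push_cast
      ring
  have h5 := (h1.tendsto _).comp (D.R_zero_tendsto a)
  rw [map_smul, hσ.one, smul_eq_mul, mul_one] at h5
  exact tendsto_nhds_unique (tendsto_const_nhds.congr fun m => (h2 m).symm) h5

end PD

end Vale.Agent.N095
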